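import Vale.Agent.P287D.Nc.Inv

/-!
# P287D: the lattice of a double cover of a surface without two-forms
-/

namespace Vale.Agent.P287D.Iv

open Set Function Module P291Z P269 P269.Coh P287Q P287Q.Hb P287Q.Zc Nc

variable {n d : ℕ}

/-- the class passes to higher models -/
theorem kt_up {G Z : Var 2} (a : P287Q.Ext G Z) (hb : a.Bir) (u : Up a) (k : KT d Z) : KT d G := by
  obtain ⟨-, w, w0, w1, w2⟩ := k
  have m : w ∈ Z.Hg 2 0 := w1 ▸ Submodule.mem_span_singleton_self _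
  refine ⟨rfl, a.pb w, fun e => w0 (hb.pb_inj (e.trans (map_zero _).symm)), ?_, ?_⟩
  · rw [← u 2, w1, Submodule.map_span, image_singleton]
    rfl
  refine w2.of_corr (uni2_h4 G) (uni2_h4 Z) (G.Hg_deg (a.pb_mem m)) (Z.Hg_deg m)
    (((LinearMap.mul ℂ _).compl₂ a.pb.toLinearMap).compr₂ G.int) (fun x hx y hy =>
      (pz_qm G.qm).int _ ((Lam _).mul_mem hx.1 (Lam.map a.q hy.1))) (.inl rfl) (fun y _ => ?_)
    fun x _ => ?_
  · change G.int (a.pb w * a.pb y) = _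
    rw [← map_mul, hb.int_pb, Int.cast_one, one_mul]
    rfl
  · exact J_comm (Y := G.ps) (k := 1) (G.Hg_deg (p := 2) (q := 0) (a.pb_mem m)) x

/-- the degree of a map -/
theorem deg0 {G Z : Var n} (p : P287Q.Ext G Z) : ∃ c : ℂ, ∀ x, G.int (p.pb x) = c * Z.int x := by
  have h1 := PS.push_deg (X := G.ps) (Y := Z.ps) p.q H.isDeg_one
  rw [show (0 : ℤ) + 2 * (Z.ps.n - G.ps.n) = 0 by
    change (0 : ℤ) + 2 * (n - n) = 0
    omega] at h1
  obtain ⟨t, ht⟩ := Var.con Z _ h1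
  refine ⟨t, fun x => ?_⟩
  have := PS.J_mul_push (X := G.ps) (Y := Z.ps) p.q 1 x
  rw [ht, mul_smul_comm, mul_one, map_smul, mul_one] at this
  exact this.symm

theorem all11 (V : Var 2) (h : V.Hg 2 0 = ⊥) {x : H V.X} (hx : H.IsDeg 2 x) : x ∈ V.Hg 1 1 := by
  have g := hgv _ V
  have t : V.T 2 0 ≤ ℂ ∙ 0 := ((V.T_nat 2 0).trans h).le.trans bot_le
  have t' := hg_cj g t
  rw [map_zero] at t'
  rw [Submodule.span_zero_singleton] at t t'
  refine hg_deg g (fun p q e => ?_) hx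
  by_cases c : p < 0 ∨ q < 0
  · exact (g.out p q (by omega)).le.trans bot_le
  obtain ⟨rfl, rfl⟩ | ⟨rfl, rfl⟩ | ⟨rfl, rfl⟩ :
      p = 2 ∧ q = 0 ∨ p = 1 ∧ q = 1 ∨ p = 0 ∧ q = 2 := by omega
  exacts [t.trans bot_le, (V.T_nat 1 1).le, t'.trans bot_le]

/-- **the lattice argument** -/
theorem core {G V : Var 2} (p : P287Q.Ext G V) (h0 : V.Hg 2 0 = ⊥) {c : H V.X} (hc : H.IsDeg 2 c)
    {h : H G.X} {τ : ℂ} (τ0 : τ ≠ 0) (d0 : d ≠ 0) (e : p.pb c = τ • h) (sq : G.int (h * h) = d)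
    (dvd : ∀ x ∈ Lk G.X 2, x ∈ G.Hg 1 1 → ∃ k : ℤ, G.int (x * h) = k * d)
    (two : G.int (p.pb c * p.pb c) = 2 * V.int (c * c)) : d ∣ 2 := by
  have d1 : (d : ℂ) ≠ 0 := Nat.cast_ne_zero.2 d0
  obtain ⟨t, ht⟩ := deg0 p
  have e1 : 2 * V.int (c * c) = τ * τ * d := by
    rw [← two, e, smul_mul_smul_comm, map_smul, sq, smul_eq_mul]
  obtain rfl : t = 2 := by
    rw [← map_mul, ht] at two
    exact mul_right_cancel₀ (right_ne_zero_of_mul (e1 ▸ mul_ne_zero (mul_ne_zero τ0 τ0) d1)) two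
  have u := uni2_h4 V
  have m : (2 / (τ * d)) • c ∈ H.deg V.X 2 := Submodule.smul_mem _ _ hc
  obtain ⟨x, a, b⟩ := u.rep (frm V ((2 / (τ * d)) • c)) fun y hy => by
    obtain ⟨k, hk⟩ := dvd _ ⟨Lam.map p.q hy.1, hy.2.map p.q⟩ (p.pb_mem (all11 V h0 hy.2))
    have := ht (y * c)
    rw [map_mul, e, mul_smul_comm, map_smul, Ext.pb_eq, hk, smul_eq_mul] at this
    rw [u.symm _ m _ hy.2, map_smul, smul_eq_mul]
    refine mem_ZZ.2 ⟨k, ?_⟩
    change _ * V.int (y * c) = _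
    field_simp
    rw [← this]
    ring
  obtain ⟨k, hk⟩ := mem_ZZ.1 (u.int x a x a)
  rw [b x a.2, u.symm _ m _ a.2, b _ m, map_smul, map_smul, LinearMap.smul_apply] at hk
  have : (2 : ℂ) = d * k := by
    rw [← hk]
    change _ = d * (_ * (_ * V.int (c * c)))
    rw [← mul_assoc, ← mul_assoc, eq_div_of_mul_eq two_ne_zero ((mul_comm _ _).trans e1)]
    field_simp
  exact Int.natCast_dvd_natCast.1 ⟨k, by exact_mod_cast this⟩

end Vale.Agent.P287D.Iv
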