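import Vale.Agent.P287D.Br.Loc
import Vale.Agent.P287D.Cl.Main
import Vale.Agent.P287D.Tw.Map
import Vale.Agent.P287D.Pb.Bas
import Vale.Agent.P287T.Pj.Main
import Vale.Agent.P287T.Pj.Cf

/-!
# P287D: every function field has a variety, on which given systems are cut out by coordinates
-/

open Set Filter Topology MvPolynomial
open Vale.Agent.P287Q Vale.Agent.P277Z Vale.Agent.P277Z.FI Vale.Agent.P297Z
open Vale.Agent.P287D.Nc Vale.Agent.P287D.Br

noncomputable section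

namespace Vale.Agent.P287D.Iv

variable {n m : ℕ} {K K' : Type} [Field K] [Algebra ℂ K] [Field K'] [Algebra ℂ K']

/-- **every function field is the function field of a variety** -/
theorem modv (h : FF K n) : ∃ (V : Var n) (ξ : V.J → K), Gp V ξ := by
  obtain ⟨y, h1, h2⟩ := h
  obtain ⟨W, c, hW, ⟨e⟩⟩ := P270L.Md.iso h1
  obtain ⟨ν, Z, q, k⟩ := P287T.Pj.alg_of_positive hW.choose_spec.1 hW.choose_spec.2
  let a : Vm (Top.one k.pv k.isConnected) K :=
    ⟨P270L.Md.tr (P285N.mdl (P285N.alg hW)) e, q, k.toQm, rfl, fun z hz f => by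
      have hc := at_chartAt (n := n) (q z)
      change Hol n f (q z) ↔ P269.Holo.HolOn Z (fun w => f (q w)) z
      constructor
      · intro h
        obtain ⟨b, b1, b2, b3, -⟩ := k.coord hz
        refine ⟨_, (h _ hc).comp_of_eq b1 b2, ?_⟩
        filter_upwards [eventually_nhdsWithin_iff.1 b3] with s hs hA
        exact congrArg f (hs hA).symm
      · rintro ⟨Φ, p1, p2⟩
        obtain ⟨σ, s1, s2⟩ := k.slc (q z)
        obtain ⟨t, ht, e⟩ := (k.eq_iff _ s1.mem0 _ hz).1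
          (s2.self_of_nhds.trans ((chartAt _ (q z)).left_inv (mem_chart_source _ _)))
        have an : AnalyticAt ℂ (fun x => scl (Cub.π₀ (Fin ν)) t (σ x)) (chartAt _ (q z) (q z)) :=
          analyticAt_pi_iff.2 fun j => analyticAt_const.mul (analyticAt_pi_iff.1 s1.an j)
        refine Hol.of_chart hc ((p1.comp_of_eq an e.symm).congr ?_)
        have c := an.continuousAt
        rw [ContinuousAt, ← e] at c
        filter_upwards [c.eventually p2, s1.mem, s2] with x a b d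
        exact (a (k.pv.inv t ht _ b)).symm.trans (congrArg f ((k.toQm.scl b ht).trans d))⟩
  exact ⟨_, _, a.exists_at.choose_spec.gp⟩

/-- the system `s` is cut out by coordinates of the block `r` without common zero -/
def Blk (V : Var n) (ξ : V.J → K) (r : V.R) (s : Finset K) : Prop :=
  ∃ (t : K) (T : Set V.J), t ≠ 0 ∧ (∀ j ∈ T, V.π j = r) ∧ (∀ y ∈ V.A, ∃ j ∈ T, y j ≠ 0) ∧
    (s : Set K) = (fun j => t * ξ j) '' T

variable {V : Var n} {W : Var m} {ξ : V.J → K} {r : V.R} {s : Finset K}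

omit [Algebra ℂ K] [Algebra ℂ K'] in
theorem Blk.up {η : W.J → K'} (h : Blk V ξ r s) (p : P287Q.Ext W V) (φ : K →+* K')
    (e : Sim V.π (φ ∘ ξ) (η ∘ p.iJ)) : Blk W η (p.iR r) (im φ s) := by
  obtain ⟨t, T, h1, h2, h3, h4⟩ := h
  obtain ⟨u, u0, e⟩ := e
  refine ⟨φ t / u r, p.iJ '' T, div_ne_zero ((map_ne_zero φ).2 h1) (u0 r), ?_, fun y hy => ?_, ?_⟩
  · rintro _ ⟨j, a, rfl⟩
    rw [p.blk, h2 j a]
  · obtain ⟨j, a, b⟩ := h3 _ (p.map y hy)
    exact ⟨_, mem_image_of_mem _ a, b⟩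
  · rw [im, Finset.coe_map, h4, image_image, image_image]
    refine image_congr fun j a => ?_
    have := e j
    simp only [Function.comp, h2 j a] at this
    simp [this, u0 r, div_mul_eq_mul_div, mul_div_assoc]

theorem blk_ex (h : Gp V ξ) (hs : Nz s) : ∃ (U : Var n) (η : U.J → K) (g : P287Q.Ext U V)
    (ρ : U.R), Gp U η ∧ Sim V.π ξ (η ∘ g.iJ) ∧ Blk U η ρ s := by
  obtain ⟨f, hf, f0⟩ := hs
  obtain ⟨k, hk⟩ := Nat.exists_eq_succ_of_ne_zero (Finset.card_ne_zero.2 ⟨f, hf⟩)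
  let e : Fin (k + 1) ≃ s := (s.equivFinOfCardEq hk).symm
  have pt : Pt (Pn k) fun j => (e j : K) := by
    refine ⟨fun _ => ⟨e.symm ⟨f, hf⟩, rfl, by simpa using f0⟩, fun δ g _ b => ?_⟩
    have : X 0 * g = 0 := MvPolynomial.funext fun y => by
      by_cases c : y = 0
      · simp [c]
      · simp [b y (mem_Ust_unit.2 c)]
    rw [(mul_eq_zero.1 this).resolve_left (X_ne_zero _), map_zero]
  obtain ⟨a⟩ := Tw.map _ _ V _ K ξ _ h pt
  have b : Blk (Pn k) (fun j => (e j : K)) () s :=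
    ⟨1, univ, one_ne_zero, fun _ _ => rfl, fun y hy => let ⟨j, _, c⟩ := hy (); ⟨j, trivial, c⟩, by
      ext x
      simp only [one_mul, image_univ]
      exact ⟨fun c => ⟨e.symm ⟨x, c⟩, by simp⟩, fun ⟨j, c⟩ => c ▸ (e j).2⟩⟩
  refine ⟨a.Γ, a.η, a.q.comp a.t.dn, a.p.iR (), a.gp, a.sq, ?_⟩
  simpa [im] using b.up a.p (RingHom.id K) a.sp

theorem Blk.cls {a : Vm V K} (k : a.At ξ) (h : Blk V ξ r s) : ∃ D, a.M.Dv D ∧ IsInt D ∧
    mx s = Ba.bar a.M D ∧ Cl.vcl a D = V.lc (Pi.single r 1) := by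
  obtain ⟨t, T, t0, h2, h3, h4⟩ := h
  obtain ⟨y, hy⟩ := V.conn.nonempty
  obtain ⟨j, jT, hj⟩ := h3 y hy
  have j0 := mul_ne_zero t0 ((k.ne j).2 ⟨y, hy, hj⟩)
  obtain ⟨D, hD⟩ := a.exists_div (Sec.crd j) ⟨y, hy, hj⟩
  have h1 : ∀ i ∈ T, ∀ D', a.IsDiv (fun y => y i) D' →
      D' = D + a.M.div (t * ξ j)⁻¹ + a.M.div (t * ξ i) := fun i c D' l => by
    have e := (h2 i c).trans (h2 j jT).symm
    rw [(l.eq hD (Sec.crd i) (e ▸ Sec.crd j) (k.is i j e)).2, add_assoc, ← div_mul a.loc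
      (inv_ne_zero j0) (mul_ne_zero t0 ((k.ne i).2 (l.exists_ne (Sec.crd i)))), ← div_eq_inv_mul,
      mul_div_mul_left _ _ t0]
  refine ⟨D + a.M.div (t * ξ j)⁻¹, dv_add hD.1 (FI.dv_div _), FI.IsInt.add hD.int (int_div a.loc _),
    Ba.mx_free a.proj (fun f hf => ?_) fun x => ?_, ?_⟩
  · obtain ⟨i, c, rfl⟩ := h4.le hf
    by_cases e : ξ i = 0
    · simp [e]
    obtain ⟨D', l⟩ := a.exists_div (Sec.crd i) ((k.ne i).1 e)
    exact mem_H0_div a.loc (by rw [add_comm, ← h1 i c D' l]; exact l.nonneg)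
  · obtain ⟨y, hy, rfl⟩ := a.exists_pt x
    obtain ⟨i, c, hi⟩ := h3 y hy
    obtain ⟨D', l⟩ := a.exists_div (Sec.crd i) ⟨y, hy, hi⟩
    refine ⟨_, h4.ge ⟨i, c, rfl⟩, mul_ne_zero t0 ((k.ne i).2 ⟨y, hy, hi⟩), fun Q hQ => ?_⟩
    rw [← l.zero (Sec.crd i) hy hi hQ, h1 i c D' l, Finsupp.add_apply _ (a.M.div (t * ξ i)),
      div_apply a.loc _ ⟨_, hQ⟩, add_comm]
  · rw [map_add, (Cl.cls a a.proj).div _ (inv_ne_zero j0), add_zero,
      Cl.vcl_lc a a.proj (Sec.crd j) hD, h2 j jT]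

end Vale.Agent.P287D.Iv
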