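import Vale.Agent.P287D.Iv.Up
import Vale.Agent.P287D.Iv.Mod
import Vale.Agent.P287D.Iv.Low
import Vale.Agent.P287D.K3.St
import Vale.Agent.P287D.Cl.Um
import Vale.Agent.P287D.Ba.Mod
import Vale.Agent.P287D.Iso.Int
import Vale.Agent.P287D.In.All
import Vale.Agent.P287D.Gm.Ffs
import Vale.Agent.P287D.Pb.Abh

/-!
# P287D: a surface of the class is not a double cover of a surface without two-forms
-/

open Set Module
open Vale.Agent.P287Q Vale.Agent.P277Z Vale.Agent.P291Z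
open Vale.Agent.P287D.Nc Vale.Agent.P287D.Br Vale.Agent.P287D.Sf Vale.Agent.P287D.K3

noncomputable section

namespace Vale.Agent.P287D.Iv

variable {L : Type} [Field L] [Algebra ℂ L] {H H' β γ δ : BD L} {f f' : L} {d : ℕ}

theorem S0.on_of (R : Rows L) (h : S0 H f) (h' : S0 H' f') {Q : Pl L} (k : On 1 H Q) :
    On 1 H' Q := by
  have hH := h.smp.car
  have n := R.nn_smp h.smp
  have wb : IsB 1 (cn L 2 + dv f) := isB_add R.cnb (R.isb _ (dv_mem_Car f))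
  have e1 : cn L 2 + dv f' - (cn L 2 + dv f) ∈ Prn L := by
    rw [add_sub_add_left_eq_sub]
    exact sub_mem (dv_mem_Prn f') (dv_mem_Prn f)
  have e3 := R.le_I2 (R.isB_congr wb e1) hH (fun P => mul_nonneg (by
    by_cases c : On 1 H' P
    · exact (h'.on P c).ge
    · exact zero_le_one.trans (h'.exc P c)) (n.nn P)) Q
  rw [R.congr_l wb e1 hH, I2_zero fun P c => n.zero_of fun b => c (h.on P (on_iff.2 b))] at e3
  by_contra c
  nlinarith [h'.exc Q c, on_iff.1 k]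

/-- the polarisation is unique up to a factor -/
theorem S0.prop (R : Rows L) (h : S0 H f) (h' : S0 H' f') (hδ : δ ∈ Car L) :
    I2 H H * I2 H' δ = I2 H H' * I2 H δ :=
  h.one R h'.smp.car (fun _ c => (R.nn_smp h'.smp).zero_of fun b =>
    (on_iff.1 (h'.on_of R h (on_iff.2 b))).ne' c) hδ

theorem s0_of (h : PreS d H f) (d0 : d ≠ 0) : S0 H f :=
  ⟨h.car, h.smp, (Nat.cast_pos.2 (Nat.pos_of_ne_zero d0)).trans_le h.deg, h.ne, h.on, h.exc, h.crv⟩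

theorem aut (hL : FF L 2) (σ : L ≃ₐ[ℂ] L) : Aut σ :=
  have s := Semi.of_alg σ
  ⟨fun Z γ _ => s.I2 In.hy hL Z γ, _, s.cf_ne 2, s.pb_cn 2⟩

theorem i2_int (hL : FF L 2) (hβ : β ∈ CarZ L) (hγ : γ ∈ CarZ L) : ∃ z : ℤ, I2 β γ = z :=
  let ⟨_, _, hM, _, e, i⟩ := Ba.com1 hL (Ba.carZ_le hβ)
  int'.int 1 L hL β ![γ] (e ▸ Ba.bar_int hM (i hβ)) (Ba.isB_car hL (Ba.carZ_le hβ))
    fun j => by fin_cases j; exact hγ

theorem i2_vcl {V : Var 2} (a : Vm V L) (D E : P277Z.Div L) :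
    V.int (Cl.vcl a D * Cl.vcl a E) = I2 (Ba.bar a.M D) (Ba.bar a.M E) := by
  have h := Cl.vcl_num a a.proj ![D, E]
  rw [← Ba.I_bar a.proj] at h
  simp only [List.ofFn_succ, List.ofFn_zero, List.prod_cons, List.prod_nil, mul_one] at h
  exact h.trans (congrArg (fun x => ((I 2 L x : ℝ) : ℂ)) (funext fun i => by fin_cases i <;> rfl))

theorem pg_ne (hC : CAN) {V : Var 2} (a : Vm V L) (h : V.Hg 2 0 ≠ ⊥) : pg L 2 ≠ 0 := by
  obtain ⟨w, w1, w0⟩ := (Submodule.ne_bot_iff _).1 h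
  obtain ⟨g, g0, k⟩ := (hC V L a w w0 w1).1
  have t : Ba.Trc a.M (cn L 2) (Ba.KM a.M) := ⟨Ba.KM_dv a.proj, fun _ => Ba.KM_pr a.proj⟩
  have := t.fs.fin a.proj
  have m : g ∈ H0 (cn L 2) := Submodule.subset_span ((t.sec_iff a.proj (Ba.Md.bar_KM_le a.proj)).2
    (FI.mem_H0_div a.loc (add_comm (Ba.KM a.M) _ ▸ k)))
  exact fun e => g0 ((Submodule.mem_bot ℂ).1 (Submodule.finrank_eq_zero.1 e ▸ m))

theorem ff_two (hL : FF L 2) {L₀ : IntermediateField ℂ L} [FiniteDimensional L₀ L] : FF L₀ 2 := by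
  obtain ⟨m, -, k⟩ := Gm.ff_sub hL L₀
  have e := trdeg_add_eq ℂ L₀ (A := L)
  rw [trdeg_eq_zero (R := L₀) (A := L), add_zero, k.trdeg, hL.trdeg] at e
  obtain rfl : m = 2 := by exact_mod_cast e
  exact k

/-- **the clause `inv`** -/
theorem inv_of (hR : Sh.For2 fun L _ _ => Rows L) (hP : PB) (hT : TK) (hU : K3.UP) (hC : CAN)
    (hd : 3 ≤ d) (hS : SK d L) (L₀ : IntermediateField ℂ L) (h2 : finrank L₀ L = 2) :
    pg L₀ 2 ≠ 0 := fun p0 => by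
  obtain ⟨_, Z, ξ, gz, kz⟩ := hS
  obtain rfl := kz.1
  have d0 : d ≠ 0 := by omega
  have hL := ff_of_gp gz
  have R := hR L hL
  have : FiniteDimensional L₀ L := Module.finite_of_finrank_pos (by omega)
  have hL₀ : FF L₀ 2 := ff_two hL
  have tk : ∀ {G : Var 2} (b : Vm G L), KT d G → ∃ g D h t, S0 (Ba.bar b.M D) g ∧
      KS d b (Cl.vcl b) D h t := fun b k => by
    obtain ⟨u, hu⟩ := Cl.exists_um b
    obtain ⟨Λ, Γ, g, D, h, t, k1, k2⟩ := hT d (by omega) _ L b u hu (Cl.cls_um b hu) k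
    simp only [Cl.vcl_um b hu] at k2
    exact ⟨g, D, h, t, s0_of (hU _ _ _ _ _ _ k1) d0, k2⟩
  obtain ⟨az, -⟩ := vm gz
  obtain ⟨g, D, -, -, s0, -⟩ := tk az kz
  obtain ⟨s, s', ns, ns', e⟩ := s0.down R (aut hL) h2
  obtain ⟨V₀, ξ₀, g₀⟩ := modv hL₀
  obtain ⟨V₁, ξ₁, -, r₁, g₁, -, b₁⟩ := blk_ex g₀ ns
  obtain ⟨V, η, q, r', gv, sq, b'⟩ := blk_ex g₁ ns'
  have b := b₁.up q (RingHom.id _) sq
  rw [show im (RingHom.id L₀) s = s by simp [im]] at b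
  have pt : Pt V (inc L₀ ∘ η) := ⟨fun r => (gv.nz r).imp fun j c => ⟨c.1, by simpa using c.2⟩,
    fun δ g c₁ c₂ => ((MvPolynomial.comp_aeval_apply η L₀.val g).symm.trans
      (congrArg _ (gv.van δ g c₁ c₂))).trans (map_zero _)⟩
  obtain ⟨ρ⟩ := Tw.map _ _ Z V L ξ _ gz pt
  obtain ⟨a, ha⟩ := vm gv
  obtain ⟨c, hc⟩ := vm ρ.gp
  obtain ⟨g', D', h, t, s1, ks⟩ := tk c (kt_up (ρ.q.comp ρ.t.dn) (ρ.bir.comp ρ.t.bir)
    ((up_bij _ ρ.bij).comp ρ.t.up) kz)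
  obtain ⟨E₁, -, i₁, m₁, c₁⟩ := b.cls ha
  obtain ⟨E₂, -, i₂, m₂, c₂⟩ := b'.cls ha
  obtain ⟨F₁, u₁, j₁, n₁, l₁⟩ := (b.up ρ.p (inc L₀) ρ.sp).cls hc
  obtain ⟨F₂, u₂, j₂, n₂, l₂⟩ := (b'.up ρ.p (inc L₀) ρ.sp).cls hc
  have sg : ∀ r, ρ.p.pb (V.lc (Pi.single r 1)) = ρ.Γ.lc (Pi.single (ρ.p.iR r) 1) := fun r => by
    refine (ρ.p.pb_lc _).trans (congrArg _ (funext fun j => ?_))
    by_cases k : ∃ i, ρ.p.iR i = j
    · obtain ⟨i, rfl⟩ := k
      simp [ρ.p.injR.extend_apply, Pi.single_apply, ρ.p.injR.eq_iff]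
    · rw [Function.extend_apply' _ _ _ k, Pi.single_eq_of_ne fun e => k ⟨r, e.symm⟩]
      rfl
  have pe : ρ.p.pb (Cl.vcl a (E₁ - E₂)) = Cl.vcl c (F₁ - F₂) := by
    rw [map_sub, map_sub, map_sub, c₁, c₂, l₁, l₂, sg, sg]
  rw [n₁, n₂, ← map_sub] at e
  obtain ⟨x, hx⟩ := i2_int hL s0.car s0.car
  obtain ⟨y, hy⟩ := i2_int hL s0.car s1.car
  have x0 : x ≠ 0 := by exact_mod_cast hx ▸ s0.pos.ne'
  have y0 : y ≠ 0 := fun k => by
    have := s0.prop R s1 s1.smp.car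
    rw [hy, k, Int.cast_zero, mul_zero] at this
    exact (mul_pos s0.pos s1.pos).ne' this
  have bc := Ba.bar_car c.proj
  have z := ks.num ((y : ℝ) • (F₁ - F₂) - ((4 * x : ℤ) : ℝ) • D')
    (FI.dv_sub (FI.dv_smul (FI.dv_sub u₁ u₂) _) (FI.dv_smul ks.dv _))
    (FI.IsInt.sub (FI.IsInt.zsmul (FI.IsInt.sub j₁ j₂) _) (FI.IsInt.zsmul ks.int _))
    fun G _ _ => by
      have := s0.prop R s1 (bc G)
      rw [map_sub, map_smul, map_smul, R.sub_l (isB_smul _ (R.isb _ (bc _)))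
        (isB_smul _ (R.isb _ (bc _))) (bc G), R.smul_l _ (R.isb _ (bc _)) (bc G),
        R.smul_l _ (R.isb _ (bc _)) (bc G), e _ (bc G)]
      rw [hx, hy] at this
      push_cast
      linarith
  rw [map_sub, map_smul, map_smul, ks.cls, ← pe, sub_eq_zero] at z
  have ok := hL.ok_sub L₀
  refine absurd (Nat.le_of_dvd two_pos (core ρ.p (by_contra fun k => pg_ne hC a k p0)
    (c := Cl.vcl a (E₁ - E₂)) (V.Hg_deg (Cl.vcl_hg a a.proj _)) (τ := 4 * x * t / y)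
    (by simp [x0, y0, ks.ne]) d0 ?_ ks.sq ks.dvd ?_)) (by omega)
  · refine smul_right_injective _ (Int.cast_ne_zero.2 y0 : (y : ℂ) ≠ 0) ?_
    simp only [← Complex.coe_smul, smul_smul] at z ⊢
    rw [mul_div_cancel₀ _ (Int.cast_ne_zero.2 y0)]
    simpa using z
  · have k := hP.deg 2 L₀ L hL₀ hL ![Ba.bar a.M (E₁ - E₂), Ba.bar a.M (E₁ - E₂)]
      (fun j => by fin_cases j <;> exact Ba.isB_car hL₀ (Ba.bar_car a.proj _))
      fun j _ => by fin_cases j <;> exact Ba.bar_car a.proj _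
    have e' : pb (inc L₀) (Ba.bar a.M (E₁ - E₂)) = Ba.bar c.M (F₁ - F₂) := by
      rw [map_sub, map_sub, ← m₁, ← m₂, ← n₁, ← n₂, pb_sub, ok.pb_mx, ok.pb_mx]
    rw [pe, i2_vcl, i2_vcl, ← e']
    rw [h2] at k
    exact_mod_cast (congrArg (I 2 L) (funext fun i => by fin_cases i <;> rfl)).trans k

end Vale.Agent.P287D.Iv
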