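import Vale.Agent.P287D.Sf.Bas
import Vale.Agent.P287D.Iso.Bas

/-!
# P287D: an involution of a surface of type S fixes the polarisation
-/

open Set
open scoped Pointwise

noncomputable section

namespace Vale.Agent.P287D.Iv

open Sf

variable {L : Type} [Field L] [Algebra ℂ L] {H : BD L} {f : L}

/-- the part of `IsS` which is used -/
structure S0 (H : BD L) (f : L) : Prop where
  car : H ∈ CarZ L
  smp : Smp H
  pos : 0 < I2 H H
  ne : f ≠ 0
  on : ∀ P, On 1 H P → (cn L 2 + dv f) P = 0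
  exc : ∀ P, ¬ On 1 H P → 1 ≤ (cn L 2 + dv f) P
  crv : ∀ P, On 1 H P → ∃ (m : ℕ) (β : BD L), 0 < m ∧ β ∈ CarZ L ∧ Hull 1 H P.δ β ∧
    ∀ γ ∈ Car L, I2 β γ = m * I2 H γ

/-- Picard number one -/
theorem S0.one (R : Rows L) (h : S0 H f) {γ : BD L} (hγ : γ ∈ Car L) (hd : Det H γ) {δ : BD L}
    (hδ : δ ∈ Car L) : I2 H H * I2 γ δ = I2 H γ * I2 H δ := by
  have hH := h.smp.car
  have n := R.nn_smp h.smp
  have hb : I2 H H • γ - I2 H γ • H ∈ Car L :=
    sub_mem ((Car L).smul_mem _ hγ) ((Car L).smul_mem _ hH)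
  have db : Det H (I2 H H • γ - I2 H γ • H) :=
    R.det_sub (R.det_smul _ hd hγ) (R.det_smul _ (.refl H) hH) ((Car L).smul_mem _ hγ)
      ((Car L).smul_mem _ hH)
  have ev : ∀ Z, IsB 1 Z → I2 Z (I2 H H • γ - I2 H γ • H) = I2 H H * I2 Z γ - I2 H γ * I2 Z H :=
    fun Z hZ => by
      rw [R.sub_r hZ ((Car L).smul_mem _ hγ) ((Car L).smul_mem _ hH), R.smul_r _ hZ hγ,
        R.smul_r _ hZ hH]
  have z : ∀ P, dg (I2 H H • γ - I2 H γ • H) P = 0 := fun P => by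
    by_cases k : On 1 H P
    · obtain ⟨m, β, -, hβ, hu, e⟩ := h.crv P k
      rw [← I2_δ, ← I2_congr (Z := β) fun Q hQ => hu.2 Q (on_iff.2 (db.pos n hQ)), e _ hb,
        ev H (R.isb H hH)]
      ring
    · exact db P (n.zero_of fun e => k (on_iff.2 e))
  have := ev δ (R.isb δ hδ)
  rw [I2_zero fun P _ => z P, R.symm δ hδ γ hγ, R.symm δ hδ H hH] at this
  linarith

/-- an automorphism which respects the intersection numbers and the canonical class -/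
structure Aut (σ : L ≃ₐ[ℂ] L) : Prop where
  num : ∀ Z, ∀ γ ∈ Car L, I2 (pb (σ : L →+* L) Z) (pb (σ : L →+* L) γ) = I2 Z γ
  can : ∃ g, g ≠ 0 ∧ pb (σ : L →+* L) (cn L 2) = cn L 2 + dv g

theorem S0.on_pl (R : Rows L) (h : S0 H f) {σ : L ≃ₐ[ℂ] L} (a : Aut σ) {Q : Pl L}
    (k : On 1 H ((Semi.of_alg σ).pl Q)) : On 1 H Q := by
  obtain ⟨g, hg, e⟩ := a.can
  have s := Semi.of_alg σ
  have hH := h.smp.car
  have n := R.nn_smp h.smp
  have w0 : 0 ≤ cn L 2 + dv f := fun P => by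
    by_cases c : On 1 H P
    · exact (h.on P c).ge
    · exact zero_le_one.trans (h.exc P c)
  have wb : IsB 1 (cn L 2 + dv f) := isB_add R.cnb (R.isb _ (dv_mem_Car f))
  have e1 : pb (σ : L →+* L) (cn L 2 + dv f) - (cn L 2 + dv f) ∈ Prn L := by
    rw [pb_add, e, s.ok.pb_dv]
    rw [add_assoc, add_sub_add_left_eq_sub]
    exact sub_mem (add_mem (dv_mem_Prn g) (dv_mem_Prn _)) (dv_mem_Prn f)
  have e2 : I2 (pb (σ : L →+* L) (cn L 2 + dv f)) H = 0 := by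
    rw [R.congr_l wb e1 hH]
    exact I2_zero fun P c => n.zero_of fun b => c (h.on P (on_iff.2 b))
  have e3 := R.le_I2 (R.isB_congr wb e1) hH
    (fun P => mul_nonneg (s.nonneg.2 w0 P) (n.nn P)) (s.pl Q)
  rw [e2, s.pb_pl] at e3
  by_contra c
  nlinarith [h.exc Q c, on_iff.1 k]

/-- the polarisation is invariant -/
theorem S0.fix (R : Rows L) (h : S0 H f) {σ : L ≃ₐ[ℂ] L} (a : Aut σ) (a' : Aut σ.symm) {δ : BD L}
    (hδ : δ ∈ Car L) : I2 (pb (σ : L →+* L) H) δ = I2 H δ := by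
  have s := Semi.of_alg σ
  have hH := h.smp.car
  have n := R.nn_smp h.smp
  have hH' := s.car.2 hH
  have d : Det H (pb (σ : L →+* L) H) := fun P c => by
    obtain ⟨Q, rfl⟩ := s.pl.surjective P
    rw [← I2_δ, ← s.pb_δ, a.num _ _ hH, I2_δ]
    refine n.zero_of fun b => ?_
    have e : (Semi.of_alg σ.symm).pl (s.pl Q) = Q :=
      Pl.ext_mem fun x => by
        rw [← s.mem_pl (P := Q), ← (Semi.of_alg σ.symm).mem_pl (P := s.pl Q)]
        simp
    exact (on_iff.1 (h.on_pl R a' (Q := s.pl Q) (by rw [e]; exact on_iff.2 b))).ne' c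
  have e1 := h.one R hH' d hH'
  rw [a.num _ _ hH] at e1
  have e2 : 0 ≤ I2 H (pb (σ : L →+* L) H) :=
    R.eff_nn h.smp.eff (R.isb H hH) (R.nn_smp (s.smp.2 h.smp))
  have e3 : I2 H (pb (σ : L →+* L) H) = I2 H H := by nlinarith [h.pos]
  have e4 := h.one R hH' d hδ
  rw [e3] at e4
  exact mul_left_cancel₀ h.pos.ne' e4

/-- norms of systems descend to the fixed field -/
theorem desc {σ : L ≃ₐ[ℂ] L} (hσ : ∀ x, σ (σ x) = x) {L₀ : IntermediateField ℂ L}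
    (h₀ : ∀ x, σ x = x → x ∈ L₀) {u : Finset L} (hu : Nz u) :
    ∃ s : Finset L₀, Nz s ∧ mx (im (inc L₀) s) = (2 : ℝ) • (mx u + pb (σ : L →+* L) (mx u)) := by
  classical
  have sm := Semi.of_alg σ
  have m1 : ∀ x : L, (x + σ x) ^ 2 ∈ L₀ := fun x => h₀ _ (by simp [hσ, add_comm])
  have m2 : ∀ x : L, (x - σ x) ^ 2 ∈ L₀ := fun x => h₀ _ (by
    rw [map_pow, map_sub, hσ]; ring)
  have hv : Nz (im (σ : L →+* L) u) :=
    let ⟨a, b, c⟩ := hu
    ⟨σ a, Pb.mem_im.2 ⟨a, b, rfl⟩, by simpa using c⟩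
  set w := u * im (σ : L →+* L) u with hw
  have nw : Nz w := hu.mul hv
  have iw : ∀ x ∈ w, σ x ∈ w := fun x hx => by
    obtain ⟨a, ha, b, hb, rfl⟩ := Finset.mem_mul.1 hx
    obtain ⟨c, hc, rfl⟩ := Pb.mem_im.1 hb
    refine Finset.mem_mul.2 ⟨c, hc, σ a, Pb.mem_im.2 ⟨a, ha, rfl⟩, ?_⟩
    simp [hσ, mul_comm]
  let v : Finset L := w.image (fun x => x + σ x) ∪ w.image fun x => x - σ x
  have sp : Submodule.span ℂ (v : Set L) = Submodule.span ℂ (w : Set L) := by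
    refine le_antisymm (Submodule.span_le.2 fun y hy => ?_) (Submodule.span_le.2 fun x hx => ?_)
    · rcases Finset.mem_union.1 hy with k | k <;> obtain ⟨x, hx, rfl⟩ := Finset.mem_image.1 k
      · exact add_mem (Submodule.subset_span hx) (Submodule.subset_span (iw x hx))
      · exact sub_mem (Submodule.subset_span hx) (Submodule.subset_span (iw x hx))
    · have e : x = (2⁻¹ : ℂ) • ((x + σ x) + (x - σ x)) := by
        rw [add_add_sub_cancel, ← two_smul ℂ, smul_smul]; norm_num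
      rw [SetLike.mem_coe, e]
      exact Submodule.smul_mem _ _ (add_mem
        (Submodule.subset_span (Finset.mem_union_left _ (Finset.mem_image_of_mem _ hx)))
        (Submodule.subset_span (Finset.mem_union_right _ (Finset.mem_image_of_mem _ hx))))
  have nv : Nz v := nz_iff_span.2 (sp ▸ nz_iff_span.1 nw)
  have mv : ∀ y ∈ v, y ^ 2 ∈ L₀ := fun y hy => by
    rcases Finset.mem_union.1 hy with k | k <;> obtain ⟨x, -, rfl⟩ := Finset.mem_image.1 k
    exacts [m1 x, m2 x]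
  let s : Finset L₀ := v.attach.image fun y => ⟨y.1 ^ 2, mv y.1 y.2⟩
  have ms : ∀ z, z ∈ im (inc L₀) s ↔ ∃ y ∈ v, y ^ 2 = z := fun z => by
    simp only [Pb.mem_im, s, Finset.mem_image, Finset.mem_attach, true_and]
    exact ⟨fun ⟨_, ⟨y, e⟩, c⟩ => ⟨y.1, y.2, by rw [← c, ← e]; rfl⟩,
      fun ⟨y, a, c⟩ => ⟨_, ⟨⟨y, a⟩, rfl⟩, c⟩⟩
  refine ⟨s, ?_, ?_⟩
  · obtain ⟨y, a, c⟩ := nv
    exact ⟨⟨y ^ 2, mv y a⟩, Finset.mem_image.2 ⟨⟨y, a⟩, Finset.mem_attach _ _, rfl⟩,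
      fun e => pow_ne_zero 2 c (congrArg Subtype.val e)⟩
  · rw [sm.ok.pb_mx, ← mx_mul hu hv, ← hw, ← mx_congr_span sp]
    funext P
    obtain ⟨y, a, c, e⟩ := P.exists_mz nv
    rw [Pi.smul_apply, mx_apply, mx_apply, P.mz_eq ((ms _).2 ⟨y, a, rfl⟩) (pow_ne_zero 2 c)
      fun z hz z0 => ?_, e, P297Z.Pl.ord_pow]
    · simp
    · obtain ⟨x, b, rfl⟩ := (ms z).1 hz
      have := P.le_mz b (fun k => z0 (by simp [k]))
      rw [P297Z.Pl.ord_pow, P297Z.Pl.ord_pow]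
      omega

/-- **four times the polarisation comes from the quotient** -/
theorem S0.down (R : Rows L) (h : S0 H f) (hA : ∀ σ : L ≃ₐ[ℂ] L, Aut σ) {L₀ : IntermediateField ℂ L}
    (h2 : Module.finrank L₀ L = 2) : ∃ s s' : Finset L₀, Nz s ∧ Nz s' ∧
      ∀ δ ∈ Car L, I2 (mx (im (inc L₀) s) - mx (im (inc L₀) s')) δ = 4 * I2 H δ := by
  have : Algebra.IsQuadraticExtension L₀ L := ⟨h2⟩
  have : FiniteDimensional L₀ L := Module.finite_of_finrank_pos (by omega)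
  have : CharZero L := charZero_of_injective_algebraMap (algebraMap ℂ L).injective
  have : CharZero L₀ := charZero_of_injective_algebraMap (algebraMap ℂ L₀).injective
  have c : Nat.card (L ≃ₐ[L₀] L) = 2 := (IsGalois.card_aut_eq_finrank L₀ L).trans h2
  obtain ⟨τ, t1, t2⟩ := (Nat.card_eq_two_iff' (1 : L ≃ₐ[L₀] L)).1 c
  have tt : τ * τ = 1 := by rw [← pow_two, ← c, pow_card_eq_one']
  have h₀ : ∀ x, τ.restrictScalars ℂ x = x → x ∈ L₀ := fun x hx => by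
    have : x ∈ (⊥ : IntermediateField L₀ L) := (IsGalois.mem_bot_iff_fixed x).2 fun ρ => by
      by_cases e : ρ = 1
      · rw [e]; rfl
      · rw [t2 ρ e]; exact hx
    obtain ⟨y, rfl⟩ := IntermediateField.mem_bot.1 this
    exact y.2
  have hσ : ∀ x, τ.restrictScalars ℂ (τ.restrictScalars ℂ x) = x := fun x =>
    congrArg (fun ρ : L ≃ₐ[L₀] L => ρ x) tt
  obtain ⟨u, u', hu, hu', e⟩ := mem_CarZ.1 h.car
  obtain ⟨s, a, b⟩ := desc hσ h₀ hu
  obtain ⟨s', a', b'⟩ := desc hσ h₀ hu'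
  refine ⟨s, s', a, a', fun δ hδ => ?_⟩
  have hH := h.smp.car
  have i1 := R.isb H hH
  have i2 := R.isb _ ((Semi.of_alg (τ.restrictScalars ℂ)).car.2 hH)
  rw [b, b', ← smul_sub, add_sub_add_comm, ← pb_sub, ← e, R.smul_l _ (isB_add i1 i2) hδ,
    R.add_l i1 i2 hδ, h.fix R (hA _) (hA _) hδ]
  ring

end Vale.Agent.P287D.Iv
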